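import Claimed.Agent.R285.Xy.Mass
import Claimed.Agent.R285.Read.BC1

/-!
# ROW 285: the XY BASICS under their `Top.lean` names   (owner helper286, GLUE)

It imports `R285/Xy/*` and `Read/BC1.lean` (the proof of `b_c < ∞`).  THEREFORE the closure of `Read/BC1.lean` may NEVER import this file:
`Bc/*`, `C5/{Defs,T1,Tor,TorUp}`, `Free/*`, `Mag/*`, `Read/{C2,C4,BC1,BC2,B8,B4}`, `Rsd/*`, `Base/*`, `Xy/*`, `Map/*`, `Est/*`, `Alg/*`, `Hol/*`, `Sp/*`
(logically they cannot need it: they would use `b_c < ∞` to prove `b_c < ∞`).  Every other unit may import it.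
NOBODY below `Glue/Wire.lean` imports `Top.lean`.

| name                | producer                                              |
|---------------------|-------------------------------------------------------|
| `xy_bkt_phase`      | unit BC (helper172): linked: `BC1.bc1_bkt`            |
| all the others      | unit XY (helper177): `Xy/Vol.lean`, `Xy/Mass.lean`    |

`xy_critical_lower` in the form `1/(8n) ≤ C_{b_c}(n)` ([C] Prop 1.2, needs Messager--Miracle-Sole) has NO producer and is NOT needed:
[C] s6 needs only a polynomial lower bound along a subsequence (`xy_critical_poly`), positivity is `xyCorr_pos`.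
-/

set_option autoImplicit false

namespace Claimed.Agent.R285

open MeasureTheory Filter Topology Claims.C0459

/-- THE EXTERNAL INPUT: existence of the BKT phase, in the sense of the frozen definitions.   PRODUCER: unit BC. -/
theorem xy_bkt_phase : ∃ b : ℝ, 0 < b ∧ xyMass b = 0 := BC1.bc1_bkt

theorem xy_corr_tendsto (b : ℝ) (hb : 0 ≤ b) (r : ℕ) :
    Tendsto (fun R => xyBoxCorr b R r) atTop (𝓝 (xyCorr b r)) := xyb_corr_tendsto b hb r

theorem xy_corr_supermul (b : ℝ) (hb : 0 ≤ b) (r s : ℕ) :
    xyCorr b r * xyCorr b s ≤ xyCorr b (r + s) := xyb_corr_supermul b hb r s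

theorem xy_mass_tendsto (b : ℝ) (hb : 0 < b) :
    Tendsto (fun r : ℕ => -(1 / (r : ℝ)) * Real.log (xyCorr b r)) atTop (𝓝 (xyMass b)) :=
  xyb_mass_tendsto b hb

theorem xy_critical_pos : 0 < xyCritical := xyb_critical_pos xy_bkt_phase

theorem xy_mass_critical : xyMass xyCritical = 0 := xyb_mass_critical xy_bkt_phase

theorem xy_mass_pos {b : ℝ} (h0 : 0 < b) (h1 : b < xyCritical) : 0 < xyMass b := xyb_mass_pos h0 h1

/-- the substitute for [C] Prop 1.2 (vEL Theorem 1). -/
theorem xy_critical_poly (r : ℕ) (hr : 1 ≤ r) :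
    1 / (2 * (r : ℝ) + 1) ^ 4 ≤ xyCorr xyCritical (2 * r) := xyb_critical_lower xy_bkt_phase r hr

end Claimed.Agent.R285
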