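import Claimed.Agent.R285.TopXY
import Claimed.Agent.R285.Read.C2
import Claimed.Agent.R285.Glue.C6
import Claimed.Agent.R285.Mag.Geo
import Claimed.Agent.R285.Mass.Tilt
import Claimed.Agent.R285.Read.C5

/-!
# ROW 285: the [C] LAYER: `a(b_c) = 8π`   (owner helper286, GLUE)

MIDDLE layer.  The units of [S], [F], [E] (SPIN/GEO, ENTRY at criticality, DYN, OBS, MASS) MAY import this file to cite `aLim_critical`.
The units that PRODUCE its inputs (HEIGHT-BASE, XY, BC, FREE, PINS, C4, C5 and everything of [B]) may NOT.

| contract              | paper item            | producer                                   | state                         |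
|-----------------------|-----------------------|--------------------------------------------|-------------------------------|
| `aCoef_tendsto`       | [C] T2.4, 1st line    | FREE (helper60 / helper200)                | linked: `C2.aCoef_tendsto'`   |
| `aLim_gap`            | [C] T2.5              | FREE                                       | linked: `C2.gap`              |
| `spin_upper_zero`     | [C] P2.6, `a = 0`     | FREE                                       | linked: `Mass.spin_upper_zero_tilt` (PROVED from `C2.spin_tilt`, `affine_small`) |
| `mass_zero_of_coef`   | [C] s4 (weak form)    | C4 (helper30)                              | linked: `mass_zero_of_aLim_pos` (`Mag/Geo.lean`) |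
| `aLim_open`           | [C] s5                | C5 (helper75)                              | linked: `C5.aLim_open'`       |
| `aLim_critical`       | [C] s6                | GLUE: PROVED here from the five above + XY |                               |

`spin_upper` (`a > 0`) and the sharp `spin_lower` of the first Top.lean are NOT consumed by the chain and were removed.
-/

set_option autoImplicit false

namespace Claimed.Agent.R285

open MeasureTheory Filter Topology Claims.C0459

theorem aCoef_tendsto (b : ℝ) (hb : 0 < b) : Tendsto (aCoef b) atTop (𝓝 (aLim b)) := C2.aCoef_tendsto' b hb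

/-- [C] Theorem 2.5 (coefficient gap). -/
theorem aLim_gap (b : ℝ) (hb : 0 < b) : aLim b = 0 ∨ 8 * Real.pi ≤ aLim b := C2.gap b hb

/-- [C] Prop 2.6 (spin upper bound), case `a = 0`. -/
theorem spin_upper_zero (b : ℝ) (hb : 0 < b) (h : aLim b = 0) (K : ℝ) :
    ∀ᶠ n : ℕ in atTop, xyCorr b n ≤ (n : ℝ) ^ (-K) := Mass.spin_upper_zero_tilt b hb h K

/-- [C] Section 4 in the only form that is consumed: a positive coefficient excludes a positive mass.   PRODUCER: C4 (helper30). -/
theorem mass_zero_of_coef (b : ℝ) (hb : 0 < b) (h : 0 < aLim b) : xyMass b ≤ 0 := (mass_zero_of_aLim_pos b hb h).le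

/-- [C] Section 5 (openness).   PRODUCER: C5 (helper75). -/
theorem aLim_open (b : ℝ) (hb : 0 < b) (h : 8 * Real.pi < aLim b) : ∀ᶠ b' in 𝓝 b, 0 < aLim b' := C5.aLim_open' b hb h

/-- [C] Section 6. -/
theorem aLim_critical : aLim xyCritical = 8 * Real.pi :=
  Glue.coef_critical_of' (Cr := xyCorr) (m := xyMass) (a := aLim) xy_critical_pos
    (fun _ h0 h1 => xy_mass_pos h0 h1) (Glue.poly_lower_of_even xy_critical_poly)
    aLim_gap spin_upper_zero mass_zero_of_coef aLim_open

theorem aCoef_critical_tendsto : Tendsto (aCoef xyCritical) atTop (𝓝 (8 * Real.pi)) := by
  have := aCoef_tendsto xyCritical xy_critical_pos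
  rwa [aLim_critical] at this

end Claimed.Agent.R285
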