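import Mathlib
import Claimed.Prelude.Def_0459

/-!
# ROW 285: BASE DEFINITIONS (no contract, no sorry).  Split out of `Top.lean` (helper27's text, moved verbatim by helper115, 13:50Z).

LAYERING RULE of the row (needed for the final wiring; see the end of `Plan.lean`):
* a PROOF file never imports a CONTRACT file of its own or of a higher layer.  It imports `R285/Defs.lean`, the `*Defs` file of its layer, contract files of LOWER layers and sibling proof files.
* a CONTRACT file (`Top.lean`, `Base/Height.lean`, `Read/*.lean`) may later import the proof files and replace `:= sorry` by `:= Proof.name`.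
Heights are stored as INTEGERS `h : V → ℤ`; the physical height is `2π h`.
-/

namespace Claimed.Agent.R285

open MeasureTheory Filter Topology Claims.C0459

noncomputable section

/-! ## 0. Finite Bessel height laws -/

/-- finite oriented multigraph (multi-edges are needed: corner faces have two exterior edges). -/
structure HGraph where
  V : Type
  E : Type
  [fV : Fintype V]
  [dV : DecidableEq V]
  [fE : Fintype E]
  src : E → V
  tgt : E → V

attribute [instance] HGraph.fV HGraph.dV HGraph.fE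

/-- `p_b(k) = e^{-b} I_k(b)`. -/
def bes (b : ℝ) (k : ℤ) : ℝ :=
  Real.exp (-b) * ∑' m : ℕ, (b / 2) ^ (2 * m + k.natAbs)
    / ((m.factorial : ℝ) * ((m + k.natAbs).factorial : ℝ))

namespace HGraph
variable (G : HGraph)

/-- weight of a height with integral connection `τ`. -/
def wt (b : ℝ) (τ : G.E → ℤ) (h : G.V → ℤ) : ℝ := ∏ e, bes b (h (G.tgt e) - h (G.src e) + τ e)

/-- heights pinned to zero on `P`. -/
def Conf (P : Set G.V) : Type := {h : G.V → ℤ // ∀ v ∈ P, h v = 0}

/-- unnormalised integral, pins `P`, connection `τ`, Gaussian penalty `exp(-Q(2π h)/2)`. -/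
def Zs (b : ℝ) (P : Set G.V) (τ : G.E → ℤ) (Q : (G.V → ℝ) → ℝ) (F : (G.V → ℝ) → ℝ) : ℝ :=
  ∑' h : G.Conf P, F (fun v => 2 * Real.pi * (h.1 v : ℝ))
    * Real.exp (-(Q fun v => 2 * Real.pi * (h.1 v : ℝ)) / 2) * G.wt b τ h.1

/-- centered expectation. -/
def Ex (b : ℝ) (P : Set G.V) (F : (G.V → ℝ) → ℝ) : ℝ :=
  G.Zs b P 0 0 F / G.Zs b P 0 0 fun _ => 1

def Vr (b : ℝ) (P : Set G.V) (X : (G.V → ℝ) → ℝ) : ℝ :=
  G.Ex b P (fun h => X h ^ 2) - G.Ex b P X ^ 2

/-- shifted-to-centered partition ratio `Z^τ/Z^0`. -/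
def ratio (b : ℝ) (P : Set G.V) (τ : G.E → ℤ) : ℝ :=
  G.Zs b P τ 0 (fun _ => 1) / G.Zs b P 0 0 fun _ => 1

end HGraph

/-- the torus `(ℤ/n)²`. -/
def torus (n : ℕ) [NeZero n] : HGraph where
  V := ZMod n × ZMod n
  E := (ZMod n × ZMod n) × Bool
  src e := e.1
  tgt e := if e.2 then (e.1.1 + 1, e.1.2) else (e.1.1, e.1.2 + 1)

/-- the free square `B_m = {0..m-1}²`; edges indexed by their lower-left endpoint. -/
def square (m : ℕ) : HGraph where
  V := Fin m × Fin m
  E := {e : (Fin m × Fin m) × Bool // if e.2 then e.1.1.1 + 1 < m else e.1.2.1 + 1 < m}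
  src e := e.1.1
  tgt e := if h : e.1.2 then (⟨e.1.1.1.1 + 1, by have := e.2; simp [h] at this; exact this⟩, e.1.1.2)
    else (e.1.1.1, ⟨e.1.1.2.1 + 1, by have := e.2; simp [h] at this; exact this⟩)

/-- `Var^{tor}_{b,n} H_n`, `H_n = n^{-2} ∑ h_v cos(2π v₁/n)`, zero-winding torus, constants factored out. -/
def torVar (b : ℝ) (n : ℕ) : ℝ :=
  if hn : n = 0 then 0 else
    haveI : NeZero n := ⟨hn⟩
    (torus n).Vr b {((0 : ZMod n), (0 : ZMod n))} fun h =>
      (n : ℝ)⁻¹ ^ 2 * ∑ v : ZMod n × ZMod n, h v * Real.cos (2 * Real.pi * (v.1.val : ℝ) / n)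

/-- `E^{tor} e^{i \bar h}` (real by symmetry): the mean phase. -/
def torPhase (b : ℝ) (n : ℕ) : ℝ :=
  if hn : n = 0 then 0 else
    haveI : NeZero n := ⟨hn⟩
    (torus n).Ex b {((0 : ZMod n), (0 : ZMod n))} fun h =>
      Real.cos ((n : ℝ)⁻¹ ^ 2 * ∑ v : ZMod n × ZMod n, h v)

/-- `a_m(b)`: variance of (right face average − left face average) on the free square. -/
def aCoef (b : ℝ) (m : ℕ) : ℝ :=
  if hm : m = 0 then 0 else
    (square m).Vr b {(⟨0, Nat.pos_of_ne_zero hm⟩, ⟨0, Nat.pos_of_ne_zero hm⟩)} fun h =>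
      (m : ℝ)⁻¹ * ∑ y : Fin m, (h (⟨m - 1, by omega⟩, y) - h (⟨0, Nat.pos_of_ne_zero hm⟩, y))

/-- the structural coefficient `a(b) = lim a_m(b)` -/
def aLim (b : ℝ) : ℝ := limUnder atTop (aCoef b)

/-- `M_n = E^0_{n,b} cos θ_0` through duality: free dual square of side `2n`, one unit of circulation. -/
def centerMag (b : ℝ) (n : ℕ) : ℝ :=
  if hn : n = 0 then 1 else
    (square (2 * n)).ratio b {(⟨0, by omega⟩, ⟨0, by omega⟩)} fun e =>
      -- the connection on the dual bonds crossing the primal path from the centre to the right wall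
      if e.1.2 = false ∧ e.1.1.2.1 + 1 = n ∧ n ≤ e.1.1.1.1 then 1 else 0

end

end Claimed.Agent.R285
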