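import Claimed.Agent.R285.TopC
import Claimed.Agent.R285.E4.Defs
import Claimed.Agent.R285.Read.F23
import Claimed.Agent.R285.Obs.Green
import Claimed.Agent.R285.Glue.WireDefs
import Claimed.Agent.R285.Asm.Passage
import Claimed.Agent.R285.Read.F6
import Claimed.Agent.R285.Read.E5
import Claimed.Agent.R285.Read.E6

/-!
# ROW 285: TOP-LEVEL contracts of the [E] and [F] layers   (owner helper286, GLUE; first version helper27)

HIGHEST contract file.  NOBODY except `Glue/Wire.lean` imports it.  Lower layers: `Defs.lean` < `TopXY.lean` (XY basics) < `TopC.lean` (`a(b_c) = 8π`) < this file.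
Every statement has EXACTLY ONE producer.  A statement is either LINKED (`:= Producer.name`; the type check is the test of the interface) or `sorry` (producer named).

| contract             | paper item                       | producer (unit, chief)          | state                                            |
|----------------------|----------------------------------|---------------------------------|--------------------------------------------------|
| `passage`            | [E] P4.4                         | DYN (helper94; cut: 14, 103)    | linked: `Asm.passage12`                          |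
| `torus_limit`        | [E] P5.6, last assertion         | MASS (helper225)                | linked: `E5.torus_limit'`                        |
| `mass_of_profile`    | [E] P6.4 + P6.7                  | MASS (helper164)                | linked: `E6.mass_of_profile`                     |
| `geometry_center`    | [F] P3.1 (3.1)                   | SPIN/GEO (helper12)             | linked: `F23.geometry_center'`                   |
| `geometry_bulk`      | [F] P3.1 (3.2)                   | SPIN/GEO (helper12)             | linked: `F23.geometry_bulk'`                     |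
| `green_constant`     | [F] (6.3)                        | OBS (helper271)                 | linked: `Obs.green_constant`                     |
| `center_consecutive` | [F] P6.1 (6.2) + P5.1            | OBS (helper271) + DYN (94)      | linked: `F6.center_consecutive`                  |

PROVED by the glue (no contract any more): `aLim_critical` ([C] s6, `TopC.lean`), `ProfileStep` ([E] P5.1, L5.9 first half, P5.10: `Glue/E5*.lean`, `Glue/E5Link.lean`),
the summation and the subsequence argument of [F] s7 (`Glue/Series.lean`, `Glue/F7.lean`), S0531, S0532 (`Glue/Wire.lean`).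
-/

set_option autoImplicit false

namespace Claimed.Agent.R285

open MeasureTheory Filter Topology Claims.C0459

noncomputable section

/-! ## 1. [E]: the chain to S0532 -/

/-- [E] Prop 4.4 (passage time and variance diagnostic), in physical form.   `a 𝔤 = 8π/(8π²) = 1/π`.   PRODUCER: DYN. -/
theorem passage : ∃ (L D0 : ℕ) (T : ℝ), 2 ≤ L ∧ 1 ≤ D0 ∧ 0 < T ∧ E4.PassageConcl L D0 T := Asm.passage12

/-- [E] Prop 5.6, last assertion: at a scale carrying the coefficient `a`, the torus cosine variance tends to `a 𝔤`, `𝔤 = 1/(8π²)`.   PRODUCER: MASS / PINS.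
(upper bound: cut into rectangles + `C2.free_partial_upper`; lower bound for `a > 0`: zero collar + [E] L5.5; partition of unity.) -/
theorem torus_limit {b : ℕ → ℝ} {n : ℕ → ℕ} {a : ℝ} (h : C2.ScaleCoef b n a) :
    Tendsto (fun k => torVar (b k) (n k)) atTop (𝓝 (a * (1 / (8 * Real.pi ^ 2)))) := E5.torus_limit' h

/-- [E] Prop 5.10 (the profile has one jump), in sequence form (no subsequence extraction is left). -/
def ProfileStep (L : ℕ) (T : ℝ) : Prop :=
  ∀ (b : ℕ → ℝ) (m : ℕ → ℕ) (w : ℝ), (∀ k, b k < xyCritical) → Tendsto b atTop (𝓝 xyCritical) →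
    Tendsto (fun k => Real.sqrt (xyCritical - b k) * Real.logb L (m k)) atTop (𝓝 w) →
    (0 < w → w < T → Tendsto (fun k => aCoef (b k) (m k)) atTop (𝓝 (8 * Real.pi))) ∧
    (T < w → Tendsto (fun k => aCoef (b k) (m k)) atTop (𝓝 0))

/-- [E] Props 6.4 + 6.7.   PRODUCER: MASS. -/
theorem mass_of_profile (L : ℕ) (hL : 2 ≤ L) (T : ℝ) (hT : 0 < T) (h : ProfileStep L T) :
    Tendsto (fun b => Real.sqrt (xyCritical - b) * Real.logb L (xyMass b)⁻¹) (𝓝[<] xyCritical) (𝓝 T) :=
  E6.mass_of_profile L hL T hT h

/-! ## 2. [F]: the chain to S0531 -/

/-- [F] Prop 3.1 (geometry), centre ratio. -/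
theorem geometry_center (d : ℝ) (hd : 0 < d) (n n' : ℕ → ℕ) (h1 : Tendsto n atTop atTop)
    (h2 : Tendsto (fun k => (n' k : ℝ) / n k) atTop (𝓝 d)) :
    Tendsto (fun k => centerMag xyCritical (n' k) / centerMag xyCritical (n k)) atTop
      (𝓝 (d ^ (-(1 / 8) : ℝ))) := F23.geometry_center' d hd n n' h1 h2

/-- [F] Prop 3.1 (geometry), bulk to centre. -/
theorem geometry_bulk : ∃ c : ℝ, 0 < c ∧
    Tendsto (fun r : ℕ => xyCorr xyCritical r / centerMag xyCritical r ^ 2) atTop (𝓝 c) :=
  F23.geometry_bulk'

/-- [F] (6.3) = (obs:green-constant). -/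
theorem green_constant (L : ℕ) (hL : 2 ≤ L) : ∃ cG : ℝ,
    Tendsto (fun N : ℕ => Glue.unitEnergy (L ^ N) - 2 * Real.pi * Real.log L * N) atTop (𝓝 cG) :=
  Obs.green_constant L hL

/-- [F] P6.1 (6.2) with `a = 8π`, error `O(D_N⁴/N² + 1/(N D_N))`, `D_N ≍ N^ε`, together with [F] P5.1
(trj:unbalanced-conclusion) at `j' = N - O(log N)`: `t = 1/(2ℓN) + O(log N/N²)`.   PRODUCER: OBS (`F6.center_consecutive`). -/
theorem center_consecutive : ∃ (L : ℕ) (t ε : ℕ → ℝ) (C : ℝ), 2 ≤ L ∧ Summable ε ∧
    (∀ᶠ N : ℕ in atTop, |t N - 1 / (2 * Real.log L * (N : ℝ))| ≤ C * Real.log N / (N : ℝ) ^ 2) ∧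
    ∀ᶠ N : ℕ in atTop,
      Real.log (centerMag xyCritical (L ^ (N + 1))) - Real.log (centerMag xyCritical (L ^ N))
        = -((1 - t N) / (16 * Real.pi)) * (Glue.unitEnergy (L ^ (N + 1)) - Glue.unitEnergy (L ^ N)) + ε N :=
  F6.center_consecutive

end

end Claimed.Agent.R285
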